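import Vale.Agent.P290Z.Cov.Spec
import Vale.Agent.P290Z.Inv.Loc
import Vale.Agent.P290.H470.Germ

/-! P290Z, part III, block COV: germs of holomorphic functions and maps, local inverses. -/

open Set Filter
open scoped Topology Manifold ContDiff

noncomputable section

namespace Vale.Agent.P290Z.Cov

open Vale.Agent.P290 Vale.Agent.P267 Vale.Agent.P290Z.W Vale.Agent.P290Z.Nk

namespace Tc

section germs

variable {X X' : Type} [TopologicalSpace X] [ChartedSpace C2 X] [TopologicalSpace X']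
  [ChartedSpace C2 X'] {f g : X → ℂ} {x : X}

theorem tend_symm (x : X) : Tendsto (chartAt C2 x).symm (𝓝 (chartAt C2 x x)) (𝓝 x) :=
  (chartAt C2 x).tendsto_symm (mem_chart_source C2 x)

theorem symm_self (x : X) : (chartAt C2 x).symm (chartAt C2 x x) = x :=
  (chartAt C2 x).left_inv (mem_chart_source C2 x)

theorem ha_congr (h : HA f x) (e : f =ᶠ[𝓝 x] g) : HA g x :=
  AnalyticAt.congr h ((tend_symm x).eventually e)

theorem ha_const (c : ℂ) (x : X) : HA (fun _ => c) x := analyticAt_const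

theorem ha_add (h : HA f x) (h' : HA g x) : HA (fun y => f y + g y) x := AnalyticAt.add h h'

theorem ha_sub (h : HA f x) (h' : HA g x) : HA (fun y => f y - g y) x := AnalyticAt.sub h h'

theorem ha_mul (h : HA f x) (h' : HA g x) : HA (fun y => f y * g y) x := AnalyticAt.mul h h'

theorem ha_inv (h : HA f x) (h0 : f x ≠ 0) : HA (fun y => (f y)⁻¹) x :=
  AnalyticAt.inv h (by rwa [symm_self])

theorem ha_cont (h : HA f x) : ContinuousAt f x := by
  have h1 := ContinuousAt.comp (f := chartAt C2 x) (AnalyticAt.continuousAt h)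
    ((chartAt C2 x).continuousAt (mem_chart_source C2 x))
  refine h1.congr ?_
  filter_upwards [chart_source_mem_nhds C2 x] with y hy
  simp only [Function.comp, (chartAt C2 x).left_inv hy]

/-- `p` is holomorphic near `x` -/
def HM (p : X → X') (x : X) : Prop :=
  ContinuousAt p x ∧
    AnalyticAt ℂ (fun v => chartAt C2 (p x) (p ((chartAt C2 x).symm v))) (chartAt C2 x x)

theorem ha_comp {p : X' → X} {x' : X'} (h : HA f (p x')) (hp : HM p x') :
    HA (fun y => f (p y)) x' := by
  have h1 := AnalyticAt.comp_of_eq h hp.2 (by rw [symm_self])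
  refine h1.congr ?_
  filter_upwards [(hp.1.tendsto.comp (tend_symm x')).eventually (chart_source_mem_nhds C2 (p x'))]
    with v hv
  exact congrArg f ((chartAt C2 (p x')).left_inv hv)

variable [IsManifold 𝓘(ℂ, C2) ω X]

theorem ha_chart (h : HA f x) {x₀ : X} (hx : x ∈ (chartAt C2 x₀).source) :
    AnalyticAt ℂ (fun v => f ((chartAt C2 x₀).symm v)) (chartAt C2 x₀ x) := by
  have e := (chartAt C2 x₀).left_inv hx
  have h1 := (Inv.trans_contDiffAt (x := x₀) (x' := x) ((chartAt C2 x₀).map_source hx)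
    (by rw [e]; exact mem_chart_source C2 x)).analyticAt
  refine (AnalyticAt.comp_of_eq h h1 (by rw [e])).congr ?_
  filter_upwards [((chartAt C2 x₀).tendsto_symm hx).eventually (chart_source_mem_nhds C2 x)]
    with v hv
  exact congrArg f ((chartAt C2 x).left_inv hv)

theorem ha_of_chart {x₀ : X} (hx : x ∈ (chartAt C2 x₀).source)
    (h : AnalyticAt ℂ (fun v => f ((chartAt C2 x₀).symm v)) (chartAt C2 x₀ x)) : HA f x := by
  have h1 := (Inv.trans_contDiffAt (x := x) (x' := x₀) (mem_chart_target C2 x)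
    (by rw [symm_self]; exact hx)).analyticAt
  refine (AnalyticAt.comp_of_eq h h1 (by rw [symm_self])).congr ?_
  filter_upwards [(tend_symm x).eventually ((chartAt C2 x₀).open_source.mem_nhds hx)] with v hv
  exact congrArg f ((chartAt C2 x₀).left_inv hv)

theorem ha_ev (h : HA f x) : ∀ᶠ y in 𝓝 x, HA f y := by
  filter_upwards [chart_source_mem_nhds C2 x, ((chartAt C2 x).continuousAt
    (mem_chart_source C2 x)).eventually (AnalyticAt.eventually_analyticAt h)] with y h1 h2
  exact ha_of_chart h1 h2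

/-- isolated singularities are removable -/
theorem hartogs (h : ∀ᶠ y in 𝓝[≠] x, HA f y) : ∃ g, HA g x ∧ ∀ᶠ y in 𝓝[≠] x, g y = f y := by
  let e := chartAt C2 x
  let L : H470.E2 ≃L[ℂ] C2 := ContinuousLinearEquiv.finTwoArrow ℂ ℂ
  have hx : x ∈ e.source := mem_chart_source C2 x
  have t1 : Tendsto (fun v => e.symm (L v)) (𝓝 (L.symm (e x))) (𝓝 x) :=
    (tend_symm x).comp (L.continuous.tendsto' _ _ (L.apply_symm_apply _))
  have t2 : ∀ᶠ v in 𝓝 (L.symm (e x)), L v ∈ e.target :=
    (L.continuous.tendsto' _ _ (L.apply_symm_apply _)).eventually (chart_target_mem_nhds C2 x)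
  obtain ⟨w, h1, h2⟩ := H470.hartogs (u := fun v => f (e.symm (L v))) (p := L.symm (e x)) (by
    rw [eventually_nhdsWithin_iff] at h ⊢
    filter_upwards [t1.eventually h, t2] with v h1 h2 hv
    have h3 := ha_chart (h1 fun e' => hv (by
      rw [mem_singleton_iff, ← mem_singleton_iff.1 e', e.right_inv h2, L.symm_apply_apply]))
      (e.map_target h2)
    rw [(chartAt C2 x).right_inv h2] at h3
    exact h3.differentiableAt.comp v L.differentiableAt)
  refine ⟨fun y => w (L.symm (e y)), ?_, ?_⟩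
  · refine (AnalyticAt.comp h1 (L.symm.analyticAt (e x))).congr ?_
    filter_upwards [chart_target_mem_nhds C2 x] with v hv
    simp only [Function.comp, e, (chartAt C2 x).right_inv hv]
  · rw [eventually_nhdsWithin_iff] at h2 ⊢
    filter_upwards [(L.symm.continuous.continuousAt.comp (e.continuousAt hx)).eventually h2,
      e.open_source.mem_nhds hx] with y h3 h4 hy
    have h5 := h3 fun e' => hy (e.injOn h4 hx (L.symm.injective e'))
    simp only [Function.comp, L.apply_symm_apply, e.left_inv h4] at h5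
    exact h5

end germs

section cover

variable {Y : W.K3} {Z : Type} [TopologicalSpace Z] [ChartedSpace C2 Z] (D : D2 Y Z) {z : Z}

theorem jj (hz : z ∉ range D.q) : D.j (D.j z) = z := by
  obtain ⟨h1, h2, h3⟩ := D.jq z hz
  rcases D.fib _ h1 z hz h3.symm with e | e
  · exact absurd e.symm h2
  · exact e.symm

theorem p_cont (hz : z ∉ range D.q) : ContinuousAt D.p z :=
  (ContinuousAt.comp (f := chartAt C2 z) (D.et z hz).1
    ((chartAt C2 z).continuousAt (mem_chart_source C2 z))).congr (by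
      filter_upwards [chart_source_mem_nhds C2 z] with y hy
      simp only [Function.comp, (chartAt C2 z).left_inv hy])

variable [T2Space Z]

theorem ev_off (hz : z ∉ range D.q) : ∀ᶠ z' in 𝓝 z, z' ∉ range D.q :=
  (finite_range D.q).isClosed.isOpen_compl.mem_nhds hz

theorem ev_off' (z : Z) : ∀ᶠ z' in 𝓝[≠] z, z' ∉ range D.q := by
  rw [eventually_nhdsWithin_iff]
  filter_upwards [((finite_range D.q).subset (sdiff_subset (t := {z}))).isClosed.isOpen_compl.mem_nhds
    (show z ∉ range D.q \ {z} from fun h => h.2 rfl)] with z' h1 h2 h3 using h1 ⟨h3, h2⟩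

variable [IsManifold 𝓘(ℂ, C2) ω Z]

theorem hm_p (hz : z ∉ range D.q) : HM D.p z := by
  refine ⟨p_cont D hz, ?_⟩
  have h1 : ∀ᶠ v in 𝓝 (chartAt C2 z z), DifferentiableAt ℂ
      (fun v => chartAt C2 (D.p z) (D.p ((chartAt C2 z).symm v))) v := by
    filter_upwards [chart_target_mem_nhds C2 z, (tend_symm z).eventually (ev_off D hz),
      ((p_cont D hz).tendsto.comp (tend_symm z)).eventually (chart_source_mem_nhds C2 (D.p z))]
      with v h1 h2 h3
    set z' := (chartAt C2 z).symm v with hz'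
    have h4 := Inv.md_chart (Inv.etale_md (D.et z' h2)) (x := D.p z) (by rw [symm_self]; exact h3)
    have h5 := (Inv.trans_contDiffAt (x := z) (x' := z') h1
      (mem_chart_source C2 z')).differentiableAt (by simp)
    refine (DifferentiableAt.comp v h4 h5).congr_of_eventuallyEq ?_
    filter_upwards [((chartAt C2 z).continuousAt_symm h1).eventually
      (chart_source_mem_nhds C2 z')] with v' hv'
    simp only [Function.comp, (chartAt C2 z').left_inv hv']
  obtain ⟨U, h2, h3, h4⟩ := _root_.eventually_nhds_iff.1 h1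
  exact P268.analyticAt_of_differentiableOn h3 (fun v hv => (h2 v hv).differentiableWithinAt) h4

/-- the local inverse of the cover -/
theorem exists_inv (hz : z ∉ range D.q) : ∃ σ : Y.X → Z, σ (D.p z) = z ∧ HM σ (D.p z) ∧
    (∀ᶠ y in 𝓝 (D.p z), D.p (σ y) = y) ∧ ∀ᶠ z' in 𝓝 z, σ (D.p z') = z' := by
  set c := chartAt C2 z with hc
  set c' := chartAt C2 (D.p z) with hc'
  have h1 : ContDiffAt ℂ ω (fun v => c' (D.p (c.symm v))) (c z) := (hm_p D hz).2.contDiffAt
  have h2 := (D.et z hz).2.2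
  beta_reduce at h2
  rw [symm_self] at h2
  let A : C2 ≃L[ℂ] C2 := (LinearEquiv.ofInjectiveEndo
    (fderiv ℂ (fun v => c' (D.p (c.symm v))) (c z) : C2 →ₗ[ℂ] C2)
    (Inv.det_ne_iff.1 h2)).toContinuousLinearEquiv
  have h3 : HasFDerivAt (fun v => c' (D.p (c.symm v))) (A : C2 →L[ℂ] C2) (c z) :=
    (h1.differentiableAt (by simp)).hasFDerivAt.congr_fderiv (by ext <;> rfl)
  have h4 := h1.hasStrictFDerivAt' h3 (by simp)
  have e0 : c' (D.p (c.symm (c z))) = c' (D.p z) := by rw [symm_self]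
  set g := h1.localInverse h3 (by simp) with hg
  have g0 : g (c' (D.p z)) = c z := e0 ▸ h1.localInverse_apply_image h3 (by simp)
  have g1 : AnalyticAt ℂ g (c' (D.p z)) := e0 ▸ (h1.to_localInverse h3 (by simp)).analyticAt
  have g2 : ∀ᶠ v in 𝓝 (c' (D.p z)), c' (D.p (c.symm (g v))) = v :=
    e0 ▸ h4.eventually_right_inverse
  have g3 : ∀ᶠ v in 𝓝 (c z), g (c' (D.p (c.symm v))) = v := h4.eventually_left_inverse
  have t0 : Tendsto c' (𝓝 (D.p z)) (𝓝 (c' (D.p z))) := c'.continuousAt (mem_chart_source C2 _)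
  have t1 : Tendsto g (𝓝 (c' (D.p z))) (𝓝 (c z)) := g0 ▸ g1.continuousAt.tendsto
  have t2 : Tendsto (fun y => c.symm (g (c' y))) (𝓝 (D.p z)) (𝓝 z) :=
    (tend_symm z).comp (t1.comp t0)
  have s0 : c.symm (g (c' (D.p z))) = z := by rw [g0, symm_self]
  refine ⟨fun y => c.symm (g (c' y)), s0, ⟨by rw [ContinuousAt, s0]; exact t2, ?_⟩, ?_, ?_⟩
  · refine g1.congr ?_
    filter_upwards [chart_target_mem_nhds C2 (D.p z), t1.eventually (chart_target_mem_nhds C2 z)]
      with v h5 h6
    rw [s0, c'.right_inv h5, c.right_inv h6]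
  · filter_upwards [t0.eventually g2, chart_source_mem_nhds C2 (D.p z),
      ((p_cont D hz).tendsto.comp t2).eventually (chart_source_mem_nhds C2 (D.p z))] with y a1 a2 a3
    exact c'.injOn a3 a2 a1
  · filter_upwards [(c.continuousAt (mem_chart_source C2 z)).eventually g3,
      chart_source_mem_nhds C2 z] with z' a1 a2
    rw [c.left_inv a2] at a1
    rw [a1, c.left_inv a2]

/-- the two local inverses -/
theorem exists_two (hz : z ∉ range D.q) : ∃ σ σ' : Y.X → Z, σ (D.p z) = z ∧ σ' (D.p z) = D.j z ∧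
    HM σ (D.p z) ∧ HM σ' (D.p z) ∧
    ∀ᶠ y in 𝓝 (D.p z), σ y ∉ range D.q ∧ D.p (σ y) = y ∧ D.j (σ y) = σ' y := by
  obtain ⟨σ, h1, h2, h3, -⟩ := exists_inv D hz
  obtain ⟨j1, -, j2⟩ := D.jq z hz
  obtain ⟨σ', k1, k2, -, k3⟩ := exists_inv D j1
  rw [j2] at k1 k2
  have t : Tendsto σ (𝓝 (D.p z)) (𝓝 z) := by
    have := h2.1.tendsto
    rwa [h1] at this
  refine ⟨σ, σ', h1, k1, h2, k2, ?_⟩
  filter_upwards [h3, t.eventually (ev_off D hz), ((D.jc z hz).tendsto.comp t).eventually k3]
    with y a1 a2 a3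
  refine ⟨a2, a1, ?_⟩
  rw [Function.comp, (D.jq _ a2).2.2, a1] at a3
  exact a3.symm

/-- the fibres near a fibre -/
theorem ev_fib (hz : z ∉ range D.q) {P : Z → Prop} (h : ∀ᶠ x in 𝓝 z, P x)
    (h' : ∀ᶠ x in 𝓝 (D.j z), P x) :
    ∀ᶠ y in 𝓝 (D.p z), ∀ x ∉ range D.q, D.p x = y → P x := by
  obtain ⟨σ, σ', h1, h2, h3, h4, h5⟩ := exists_two D hz
  filter_upwards [h5, h3.1.eventually (h1.symm ▸ h), h4.1.eventually (h2.symm ▸ h')]
    with y a1 a2 a3 x hx e
  rcases D.fib _ a1.1 x hx (e.trans a1.2.1.symm) with e' | e'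
  · exact e' ▸ a2
  · rw [e', a1.2.2]
    exact a3

omit [IsManifold 𝓘(ℂ, C2) ω Z] [T2Space Z] in
/-- the fibres near a point of the curves -/
theorem ev_fib' [CompactSpace Z] {y : Y.X} (hy : ∀ x ∉ range D.q, D.p x ≠ y) {P : Z → Prop}
    (h : ∀ c ∈ range D.q, ∀ᶠ x in 𝓝 c, P x) :
    ∀ᶠ y' in 𝓝 y, ∀ x ∉ range D.q, D.p x = y' → P x := by
  have h1 : ∀ x ∈ (interior {x | P x})ᶜ, x ∉ range D.q := fun x hx hq =>
    hx (mem_interior_iff_mem_nhds.2 (h x hq))
  have h2 := (isOpen_interior.isClosed_compl.isCompact.image_of_continuousOn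
    fun x hx => (p_cont D (h1 x hx)).continuousWithinAt).isClosed.isOpen_compl
  filter_upwards [h2.mem_nhds (x := y) fun ⟨x, hx, e⟩ => hy x (h1 x hx) e] with y' a x _ e
  by_contra hP
  exact a ⟨x, fun hi => hP (interior_subset hi), e⟩

end cover

end Tc

end Vale.Agent.P290Z.Cov
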